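import Vale.Agent.P089.Bridge

namespace Vale.Agent.Results.P089.NotSurj

open Vale.Agent.P089

theorem result : ∃ (G : Type) (_ : Group G) (_ : Countable G),
    (∀ (Z : Type) [TopologicalSpace Z] [T2Space Z] [MulAction G Z] [ContinuousConstSMul G Z]
      [ProperlyDiscontinuousSMul G Z] (c : Cutoff G Z) (H : Type) [NormedAddCommGroup H]
      [InnerProductSpace ℂ H] [CompleteSpace H] (x : Cycle G H Z), ∃ k, BC.IsIndex x c k) ∧
    AddSubgroup.closure {k : BC.K0 G | ∃ (Z : Type) (_ : TopologicalSpace Z) (_ : T2Space Z)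
      (_ : MulAction G Z) (_ : ContinuousConstSMul G Z) (_ : ProperlyDiscontinuousSMul G Z)
      (c : Cutoff G Z) (H : Type) (_ : NormedAddCommGroup H) (_ : InnerProductSpace ℂ H)
      (_ : CompleteSpace H) (x : Cycle G H Z), BC.IsIndex x c k} ≠ ⊤ := by
  obtain ⟨G, i1, i2, h⟩ := BC.exists_group
  exact ⟨G, i1, i2, fun _ _ _ _ _ _ c _ _ _ _ x => BC.exists_index x c, h⟩

end Vale.Agent.Results.P089.NotSurj
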